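import Vale.Agent.Lib.P060.OddCase
import Vale.Agent.Lib.P060.EvenCase

open Vale.Agent.Lib.P060 SimpleGraph in
/-- Hadwiger for circulant graphs with independence number at most two: every such graph of even
order `n` has a `K_(n/2)` minor, and every such graph of odd order `n` has a `K_((n+1)/2)` minor
as soon as some unit `b` has `2 b` missing from the connection set and `3 b` not missing. -/
theorem Vale.Agent.Results.P060.Circulant.result
    {n : ℕ} [NeZero n] (J : Set (ZMod n))
    (hα : IndepNumLeTwo (circulantGraph J)) :
    (Even n → HasCliqueMinor (circulantGraph J) (n / 2)) ∧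
    (Odd n → (∃ b : ZMod n, IsUnit b ∧ Missing (circulantGraph J) (2 * b) ∧
        ¬ Missing (circulantGraph J) (3 * b)) →
      HasCliqueMinor (circulantGraph J) ((n + 1) / 2)) := by
  refine ⟨fun hn => ?_, fun hn hb => ?_⟩
  · obtain ⟨m, hm⟩ := hn
    exact even_case (m := m) (by omega) hα
  · obtain ⟨m, rfl⟩ := hn
    obtain ⟨b, hu, h2, h3⟩ := hb
    have e : (2 * m + 1 + 1) / 2 = m + 1 := by omega
    rw [e]
    exact odd_case hα hu h2 h3
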